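import Vale.Agent.P057.Uniform

open Filter Topology Vale.Agent.P057

/-- For every `k ≥ 3`, Erdos's conjecture for `k`-term progressions (Q1 for that `k`) is
equivalent to the convergence of `∑ r_k(N)/N^2`, to the convergence of `∑ r_k(2^n)/2^n`, and to a
uniform bound on the harmonic sums of all sets without `k`-term progressions; moreover it
implies `r_k(N) = o(N / log N)`. -/
theorem Vale.Agent.Results.P057.SummabilityCriterion.result : ∀ k : ℕ, 3 ≤ k →
    (ErdosAP k ↔ Summable (fun N : ℕ => (rk k N : ℝ) / (N : ℝ) ^ 2)) ∧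
    (ErdosAP k ↔ Summable (fun n : ℕ => (rk k (2 ^ n) : ℝ) / 2 ^ n)) ∧
    (ErdosAP k ↔ ∃ C : ℝ, ∀ A : Set ℕ, (∀ a ∈ A, 0 < a) → ¬ HasAP k A →
      Summable (fun a : A => (1 : ℝ) / ((a : ℕ) : ℝ)) ∧
        ∑' a : A, (1 : ℝ) / ((a : ℕ) : ℝ) ≤ C) ∧
    (ErdosAP k → Tendsto (fun N : ℕ => (rk k N : ℝ) * Real.log N / N) atTop (𝓝 0)) :=
  fun _ hk => main hk
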